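import Mathlib.Geometry.Manifold.IsManifold.Basic
import Mathlib.Analysis.Matrix.PosDef
import Mathlib.MeasureTheory.Integral.Bochner.Set
import Mathlib.MeasureTheory.Measure.Lebesgue.Complex
import Mathlib.Analysis.SpecialFunctions.Log.Basic

/-!
# P272: Hermitian and Kähler metrics, curvature, metrics on the canonical bundle

Everything is expressed in the charts of a complex manifold `X` modelled on `ℂⁿ = Fin n → ℂ`.
-/

open scoped Manifold ContDiff ComplexOrder
open MeasureTheory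

noncomputable section

namespace Vale.Agent.P272.K

/-- `ℂⁿ`. -/
abbrev Cm (n : ℕ) : Type := Fin n → ℂ

/-- `∂f/∂z_j = (∂f/∂x_j - i ∂f/∂y_j)/2` at `z`. -/
def dz {n : ℕ} (j : Fin n) (f : Cm n → ℂ) (z : Cm n) : ℂ :=
  (fderiv ℝ f z (Pi.single j 1) - Complex.I * fderiv ℝ f z (Pi.single j Complex.I)) / 2

/-- `∂f/∂z̄_j = (∂f/∂x_j + i ∂f/∂y_j)/2` at `z`. -/
def dzb {n : ℕ} (j : Fin n) (f : Cm n → ℂ) (z : Cm n) : ℂ :=
  (fderiv ℝ f z (Pi.single j 1) + Complex.I * fderiv ℝ f z (Pi.single j Complex.I)) / 2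

/-- The complex Hessian `(∂²f/∂z_j∂z̄_k)` of a real function, the coefficient matrix of `i∂∂̄f`. -/
def cHess {n : ℕ} (f : Cm n → ℝ) (z : Cm n) : Matrix (Fin n) (Fin n) ℂ :=
  Matrix.of fun j k => dz j (dzb k fun y => (f y : ℂ)) z

/-- Charts (local holomorphic coordinate systems) of `X`. -/
abbrev Chart (n : ℕ) (X : Type*) [TopologicalSpace X] := OpenPartialHomeomorph X (Cm n)

section
variable {n : ℕ} {X : Type*} [TopologicalSpace X]

/-- The Jacobian matrix `(∂z'_p/∂z_i)` at `x` of the change of coordinates from `e` to `e'`. -/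
def jacM (e e' : Chart n X) (x : X) : Matrix (Fin n) (Fin n) ℂ :=
  Matrix.of fun p i => dz i (fun z => e' (e.symm z) p) (e x)

/-- The Chern curvature `R_{i j̄ k l̄} = -∂_i ∂_j̄ h_{k l̄} + Σ h^{p q̄} ∂_i h_{k q̄} ∂_j̄ h_{p l̄}` of the
Hermitian metric with coefficient matrix `h`. -/
def curv (h : Cm n → Matrix (Fin n) (Fin n) ℂ) (z : Cm n) (i j k l : Fin n) : ℂ :=
  -dz i (dzb j fun y => h y k l) z +
    ∑ q, ∑ p, dz i (fun y => h y k q) z * (h z)⁻¹ q p * dzb j (fun y => h y p l) z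

variable [ChartedSpace (Cm n) X]

/-- `e` is a chart of the atlas of `X` and is defined at `x`. -/
def At (e : Chart n X) (x : X) : Prop := e ∈ atlas (Cm n) X ∧ x ∈ e.source

/-- `h` is a smooth Hermitian metric on `X`, given by its coefficient matrices `(h_{i j̄})` in the
charts of `X`. -/
structure IsHermitian (h : Chart n X → Cm n → Matrix (Fin n) (Fin n) ℂ) : Prop where
  smooth : ∀ e x, At e x → ∀ i j, ContDiffAt ℝ ∞ (fun z => h e z i j) (e x)
  posDef : ∀ e x, At e x → (h e (e x)).PosDef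
  change : ∀ e e' x, At e x → At e' x →
    h e (e x) = (jacM e e' x).transpose * h e' (e' x) * (jacM e e' x).map (starRingEnd ℂ)

/-- `w` is a smooth Kähler metric on `X` (its fundamental form `i Σ w_{i j̄} dz_i ∧ dz̄_j` is
closed). -/
structure IsKahler (w : Chart n X → Cm n → Matrix (Fin n) (Fin n) ℂ) : Prop
    extends IsHermitian w where
  closed : ∀ e x, At e x → ∀ i j k, dz k (fun z => w e z i j) (e x) = dz i (fun z => w e z k j) (e x)

/-- The holomorphic sectional curvature of the Hermitian metric `h` (of its Chern connection) is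
negative: `Σ R_{i j̄ k l̄} ξ_i ξ̄_j ξ_k ξ̄_l < 0` for every nonzero tangent vector `ξ`. -/
def NegHSC (h : Chart n X → Cm n → Matrix (Fin n) (Fin n) ℂ) : Prop :=
  ∀ e x, At e x → ∀ ξ : Cm n, ξ ≠ 0 →
    (∑ i, ∑ j, ∑ k, ∑ l, curv (h e) (e x) i j k l *
      (ξ i * (starRingEnd ℂ) (ξ j) * ξ k * (starRingEnd ℂ) (ξ l))).re < 0

/-- `φ` is a smooth Hermitian metric on the canonical bundle `K_X`, given by its weights: in the
chart `e` the metric is `|dz_1 ∧ … ∧ dz_n|² = exp (-φ e)`, and its curvature form is `i∂∂̄(φ e)`. -/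
structure IsCanonicalMetric (φ : Chart n X → Cm n → ℝ) : Prop where
  smooth : ∀ e x, At e x → ContDiffAt ℝ ∞ (φ e) (e x)
  change : ∀ e e' x, At e x → At e' x →
    φ e (e x) = φ e' (e' x) + Real.log (‖(jacM e e' x).det‖ ^ 2)

/-- The canonical bundle twisted by the class `a [w]` is nef: for every `ε > 0` there is a smooth
Hermitian metric on `K_X` with curvature `≥ -(a + ε) w`. For `a = 0`: `K_X` is nef. -/
def NefCanonical (w : Chart n X → Cm n → Matrix (Fin n) (Fin n) ℂ) (a : ℝ) : Prop :=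
  ∀ ε : ℝ, 0 < ε → ∃ φ : Chart n X → Cm n → ℝ, IsCanonicalMetric φ ∧
    ∀ e x, At e x → (cHess (φ e) (e x) + ((a + ε : ℝ) : ℂ) • w e (e x)).PosSemidef

/-- `I` is the integral over `X` of the form of top degree which in the chart `e` is the function
`D e` times Lebesgue measure: the integral computed with any finite partition of unity
subordinate to charts. -/
def IsIntegral (D : Chart n X → Cm n → ℝ) (I : ℝ) : Prop :=
  ∀ (N : ℕ) (e : Fin N → Chart n X) (ρ : Fin N → X → ℝ), (∀ i, e i ∈ atlas (Cm n) X) →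
    (∀ i, Continuous (ρ i)) → (∀ i, tsupport (ρ i) ⊆ (e i).source) → (∀ x, ∑ i, ρ i x = 1) →
    ∑ i, ∫ z in (e i).target, ρ i ((e i).symm z) * D (e i) z = I

end

/-- The main statement: on a compact complex manifold `X` of dimension `n ≥ 1` with a Kähler metric
`w` and a Hermitian metric `h` of negative holomorphic sectional curvature, if `K_X + a[w]` is nef,
`a ≥ 0`, then `(K_X + a[w])^n > 0`. -/
def MainStatement : Prop :=
  ∀ (n : ℕ) (_ : 1 ≤ n) (X : Type) [TopologicalSpace X] [T2Space X] [CompactSpace X] [Nonempty X]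
    [ChartedSpace (Cm n) X] [IsManifold 𝓘(ℂ, Cm n) ω X]
    (w h : Chart n X → Cm n → Matrix (Fin n) (Fin n) ℂ) (_ : IsKahler w) (_ : IsHermitian h)
    (_ : NegHSC h) (a : ℝ) (_ : 0 ≤ a) (_ : NefCanonical w a) (φ : Chart n X → Cm n → ℝ)
    (_ : IsCanonicalMetric φ),
    ∃ I : ℝ, 0 < I ∧ IsIntegral (fun e z => (cHess (φ e) z + (a : ℂ) • w e z).det.re) I

end Vale.Agent.P272.K
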