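import Vale.Agent.P272.K.Stmt

/-! Interfaces between the blocks of the P272/K project (not part of the final statement). -/

open scoped Manifold ContDiff ComplexOrder
open MeasureTheory

noncomputable section

namespace Vale.Agent.P272.K

/-- smooth real function on `X` -/
def SmoothFn {n : ℕ} {X : Type*} [TopologicalSpace X] [ChartedSpace (Cm n) X] (u : X → ℝ) : Prop :=
  ∀ (e : Chart n X) (x : X), At e x → ContDiffAt ℝ ∞ (fun z => u (e.symm z)) (e x)

/-- the metric `χ + i∂∂̄u` in the chart `e` -/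
def addH {n : ℕ} {X : Type*} [TopologicalSpace X]
    (χ : Chart n X → Cm n → Matrix (Fin n) (Fin n) ℂ) (u : X → ℝ) (e : Chart n X) (z : Cm n) :
    Matrix (Fin n) (Fin n) ℂ := χ e z + cHess (fun y => u (e.symm y)) z

/-- Aubin-Yau: `log (det (χ + i∂∂̄u) / det χ) = u + F` is solvable (goal of phase 2). -/
def AubinYau (n : ℕ) (X : Type) [TopologicalSpace X] [ChartedSpace (Cm n) X] : Prop :=
  ∀ (χ : Chart n X → Cm n → Matrix (Fin n) (Fin n) ℂ) (_ : IsKahler χ) (F : X → ℝ) (_ : SmoothFn (n := n) F),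
    ∃ u : X → ℝ, SmoothFn (n := n) u ∧ (∀ e x, At e x → (addH χ u e (e x)).PosDef) ∧
      ∀ e x, At e x → Real.log (addH χ u e (e x)).det.re - Real.log (χ e (e x)).det.re = u x + F x

/-- what phase 1 consumes: for every `ε > 0` a metric on `K_X` such that
`g = i∂∂̄φ + (a+ε) w` is Kähler with `Ric(g) ≥ -g` -/
def TwistedKE {n : ℕ} {X : Type*} [TopologicalSpace X] [ChartedSpace (Cm n) X]
    (w : Chart n X → Cm n → Matrix (Fin n) (Fin n) ℂ) (a : ℝ) : Prop :=
  ∀ ε : ℝ, 0 < ε → ∃ φ : Chart n X → Cm n → ℝ, IsCanonicalMetric φ ∧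
    (∀ e x, At e x → (cHess (φ e) (e x) + ((a + ε : ℝ) : ℂ) • w e (e x)).PosDef) ∧
    ∀ e x, At e x → (-cHess (fun z => Real.log (cHess (φ e) z + ((a + ε : ℝ) : ℂ) • w e z).det.re) (e x)
      + (cHess (φ e) (e x) + ((a + ε : ℝ) : ℂ) • w e (e x))).PosSemidef

end Vale.Agent.P272.K
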